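import Mathlib
import Vale.Agent.P045.Assemble

/-!
Disproof of Ryser's conjecture, already in the intersecting case.

The vertex set is `Fin r × Fin m`, part `i` being `{i} × Fin m`; an edge is a function
`e : Fin r → Fin m`, standing for the vertex set `{(i, e i) : i}`.
-/

namespace Vale.Agent.Results.P045.RyserFalse

/-- There is an intersecting `r`-partite `r`-uniform hypergraph whose covering number is at
least `r`, so `τ > (r - 1) * ν` for it. -/
theorem result :
    ∃ (r m : ℕ) (H : Finset (Fin r → Fin m)), 2 ≤ r ∧ H.Nonempty ∧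
      (∀ e ∈ H, ∀ e' ∈ H, ∃ i, e i = e' i) ∧
      (∀ M ⊆ H, (∀ e ∈ M, ∀ e' ∈ M, e ≠ e' → ∀ i, e i ≠ e' i) → M.card ≤ 1) ∧
      ∀ C : Finset (Fin r × Fin m), (∀ e ∈ H, ∃ i, (i, e i) ∈ C) → r ≤ C.card := by
  obtain ⟨r, m, H, hr, hne, hint, hcov⟩ := Vale.Agent.P045.exists_counterexample
  refine ⟨r, m, H, hr, hne, hint, ?_, hcov⟩
  intro M hM hdis
  rw [Finset.card_le_one]
  intro e he e' he'
  by_contra hee
  obtain ⟨i, hi⟩ := hint e (hM he) e' (hM he')
  exact hdis e he e' he' hee i hi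

end Vale.Agent.Results.P045.RyserFalse
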